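import Vale.Agent.P078.Semifinite.Corners.Corner
import Vale.Agent.P078.Singular.Pieces

/-!
Averaging a projection of finite trace into the MASA.
-/

namespace Vale.Agent.P078.Semifinite.Corners

open MKS Singular Filter Topology
open scoped InnerProductSpace ENNReal

variable {H : Type} [NormedAddCommGroup H] [InnerProductSpace ℂ H] [CompleteSpace H]
variable {M A : VonNeumannAlgebra H} {g z : H →L[ℂ] H} {τ : (H →L[ℂ] H) →ₗ[ℂ] ℂ}
variable {ι : Type} {b : ι → (H →L[ℂ] H)}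

/-- A weak limit is strongly near convex combinations. -/
theorem exists_convex {κ : Type} (T : κ → (H →L[ℂ] H)) (U : Ultrafilter κ) (a : H →L[ℂ] H)
    (halim : ∀ v w, Tendsto (fun i => ⟪T i v, w⟫_ℂ) (U : Filter κ) (𝓝 ⟪a v, w⟫_ℂ))
    (F : Finset H) {δ : ℝ} (hδ : 0 < δ) :
    ∃ (J : Type) (_ : Fintype J) (lam : J → ℝ) (s : J → κ), (∀ j, 0 ≤ lam j) ∧ ∑ j, lam j = 1 ∧
      ∀ ξ ∈ F, ‖((∑ j, (lam j : ℂ) • T (s j)) - a) ξ‖ < δ := by
  classical
  let u : PiLp 2 (fun _ : F => H) := WithLp.toLp 2 fun ξ => a ξ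
  let C : Set (PiLp 2 (fun _ : F => H)) := Set.range fun i => WithLp.toLp 2 fun ξ : F => T i ξ
  have hu : ∀ w : PiLp 2 (fun _ : F => H), ∀ ε : ℝ, 0 < ε → ∃ c ∈ C,
      |RCLike.re ⟪w, c⟫_ℂ - RCLike.re ⟪w, u⟫_ℂ| < ε := by
    intro w ε hε
    have h : Tendsto (fun i => ∑ ξ : F, (⟪T i ξ, w.ofLp ξ⟫_ℂ).re) (U : Filter κ)
        (𝓝 (∑ ξ : F, (⟪a ξ, w.ofLp ξ⟫_ℂ).re)) :=
      tendsto_finsetSum _ fun ξ _ => (Complex.continuous_re.tendsto _).comp (halim _ _)
    obtain ⟨i, hi⟩ := ((Metric.tendsto_nhds.1 h) ε hε).exists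
    refine ⟨_, ⟨i, rfl⟩, ?_⟩
    rw [Real.dist_eq] at hi
    rw [inner_re_symm w, inner_re_symm w u]
    simp only [u, PiLp.inner_apply, map_sum, RCLike.re_to_complex]
    exact hi
  obtain ⟨J, hJ, lam, c, h0, h1, hc, hd⟩ := mem_closure_hull hu hδ
  choose s hsc using hc
  refine ⟨J, hJ, lam, s, h0, h1, fun ξ hξ => ?_⟩
  have h := (PiLp.norm_apply_le (∑ j, lam j • c j - u) ⟨ξ, hξ⟩).trans_lt hd
  simp only [← hsc, u] at h
  simpa [WithLp.ofLp_sum, Complex.coe_smul] using h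

/-- Normal functionals see a weak limit through the values on its approximants. -/
theorem limit_value {κ : Type} (T : κ → (H →L[ℂ] H)) (U : Ultrafilter κ) {a : H →L[ℂ] H}
    (halim : ∀ v w, Tendsto (fun i => ⟪T i v, w⟫_ℂ) (U : Filter κ) (𝓝 ⟪a v, w⟫_ℂ))
    (hT : ∀ i, T i ∈ M ∧ ‖T i‖ ≤ 1) (ha : a ∈ M) (han : ‖a‖ ≤ 1)
    {φ : (H →L[ℂ] H) →ₗ[ℂ] ℂ} (hφ : Nrm M φ) {η : ℝ} (hη : 0 < η) :
    ∃ (J : Type) (_ : Fintype J) (lam : J → ℝ) (s : J → κ), (∀ j, 0 ≤ lam j) ∧ ∑ j, lam j = 1 ∧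
      ‖φ a - ∑ j, (lam j : ℂ) * φ (T (s j))‖ < η := by
  obtain ⟨F, δ, hδ, hF⟩ := hφ η hη
  obtain ⟨J, hJ, lam, s, h0, h1, hd⟩ := exists_convex T U a halim F hδ
  refine ⟨J, hJ, lam, s, h0, h1, ?_⟩
  have hn : ‖∑ j, (lam j : ℂ) • T (s j)‖ ≤ 1 := by
    refine (norm_sum_le _ _).trans ((Finset.sum_le_sum fun j _ => ?_).trans h1.le)
    rw [norm_smul, Complex.norm_real, Real.norm_of_nonneg (h0 j)]
    exact mul_le_of_le_one_right (h0 j) (hT _).2
  have h := hF _ (sub_mem (sum_mem fun j _ => M.toStarSubalgebra.smul_mem (hT (s j)).1 _) ha)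
    ((norm_sub_le _ _).trans (by linarith)) hd
  rw [map_sub, map_sum, norm_sub_rev] at h
  simpa [map_smul] using h

theorem nonneg_of_weak {κ : Type} (T : κ → (H →L[ℂ] H)) (U : Ultrafilter κ) {a : H →L[ℂ] H}
    (halim : ∀ v w, Tendsto (fun i => ⟪T i v, w⟫_ℂ) (U : Filter κ) (𝓝 ⟪a v, w⟫_ℂ))
    (hT : ∀ i, 0 ≤ T i) (hsa : IsSelfAdjoint a) : 0 ≤ a := by
  rw [ContinuousLinearMap.nonneg_iff_isPositive, ContinuousLinearMap.isPositive_iff_complex]
  intro v
  refine ⟨hsa.isSymmetric.coe_re_inner_apply_self v,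
    ge_of_tendsto ((Complex.continuous_re.tendsto _).comp (halim v v))
      (Eventually.of_forall fun i => ?_)⟩
  exact ((ContinuousLinearMap.isPositive_iff_complex _).1
    ((ContinuousLinearMap.nonneg_iff_isPositive _).1 (hT i)) v).2

/-- A central functional is invariant under pinching by a partition in `A`. -/
theorem central_pinch {f : (H →L[ℂ] H) →ₗ[ℂ] ℂ} (hf : IsNormalCentral M A f)
    (hAM : ∀ y ∈ A, y ∈ M) {K : ℕ} {P : Fin K → (H →L[ℂ] H)} (hP : IsPart A P)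
    {y : H →L[ℂ] H} (hy : y ∈ M) : f (Vale.Agent.P078.pinch P y) = f y := by
  have h : ∀ k, f (P k * y * P k) = f (y * P k) := fun k => by
    rw [mul_assoc, hf.2.1 _ (hP.1 k).1 (hP.1 k).2 _ (mul_mem hy (hAM _ (hP.1 k).1)), mul_assoc,
      (hP.1 k).2.isIdempotentElem.eq]
  rw [Vale.Agent.P078.pinch, map_sum]
  simp only [h]
  rw [← map_sum, ← Finset.mul_sum, hP.2.2, mul_one]

variable (hs : Sys M g τ b z)
include hs

/-- A finite trace projection seen by a normal central functional gives one in the MASA. -/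
theorem Sys.exists_fin_masa (hA : IsMASA M A) {e₀ v : H →L[ℂ] H} (he₀ : IsPr A e₀)
    (hv : IsPr M v) (hve : v * e₀ = v) (hfin : wtr τ b v ≠ ⊤) {f : (H →L[ℂ] H) →ₗ[ℂ] ℂ}
    (hf : IsNormalCentral M A f) (hfv : f v ≠ 0) :
    ∃ P, IsPr A P ∧ P * e₀ = P ∧ P ≠ 0 ∧ wtr τ b P ≠ ⊤ := by
  obtain ⟨hAM, hab, hmax⟩ := hA
  obtain ⟨a, haA, hasa, hae, han, halim⟩ :=
    exists_expect hAM hab hmax hv.1 hv.2.isSelfAdjoint he₀ hve
  have hvn : ‖v‖ ≤ 1 := hv.2.norm_le
  have hTM : ∀ s, Vale.Agent.P078.pinch (Singular.part hab s) v ∈ M ∧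
      ‖Vale.Agent.P078.pinch (Singular.part hab s) v‖ ≤ 1 := fun s =>
    ⟨sum_mem fun k _ => mul_mem (mul_mem (hAM _ ((isPart_part hab s).1 k).1) hv.1)
        (hAM _ ((isPart_part hab s).1 k).1),
      ((isPart_part hab s).norm_pinch_le v).trans hvn⟩
  have hT0 : ∀ s, 0 ≤ Vale.Agent.P078.pinch (Singular.part hab s) v := fun s =>
    Finset.sum_nonneg fun k _ => conj_proj_nonneg ((isPart_part hab s).1 k).2 hv.2.nonneg
  have ha0 : 0 ≤ a := nonneg_of_weak _ _ halim hT0 hasa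
  have hfa : f a = f v := eq_of_sub_eq_zero (norm_le_zero_iff.1
    (le_of_forall_gt_imp_ge_of_dense fun η hη => by
    obtain ⟨J, hJ, lam, s, h0, h1, h⟩ :=
      limit_value _ _ halim hTM (hAM _ haA) (han.trans hvn) (nrm_of_central hf) hη
    simp only [central_pinch hf hAM (isPart_part hab _) hv.1, ← Finset.sum_mul,
      ← Complex.ofReal_sum, h1, Complex.ofReal_one, one_mul] at h
    exact h.le))
  have hane : a ≠ 0 := fun h => hfv (by rw [← hfa, h, map_zero])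
  have hwa : wtr τ b a ≤ wtr τ b v := by
    rw [wtr, ENNReal.tsum_eq_iSup_sum]
    refine iSup_le fun T => ?_
    rw [← ENNReal.ofReal_sum_of_nonneg fun i _ => hs.term_nonneg i (hAM _ haA) ha0,
      ENNReal.ofReal_le_iff_le_toReal hfin]
    refine le_of_forall_pos_le_add fun η hη => ?_
    obtain ⟨J, hJ, lam, s, h0, h1, h⟩ :=
      limit_value _ _ halim hTM (hAM _ haA) (han.trans hvn) (hs.nrm_wpart T) hη
    have hbd : ∀ j, (wpart τ b T (Vale.Agent.P078.pinch (Singular.part hab (s j)) v)).re ≤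
        (wtr τ b v).toReal := fun j => by
      rw [wpart_apply, Complex.re_sum, ← ENNReal.ofReal_le_iff_le_toReal hfin,
        ENNReal.ofReal_sum_of_nonneg fun i _ => hs.term_nonneg i (hTM _).1 (hT0 _)]
      exact (ENNReal.sum_le_tsum T).trans (hs.wtr_pinch (isPart_part hab _) hAM hv).le
    have h2 : (∑ j, (lam j : ℂ) *
        wpart τ b T (Vale.Agent.P078.pinch (Singular.part hab (s j)) v)).re ≤
          (wtr τ b v).toReal := by
      rw [Complex.re_sum]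
      refine (Finset.sum_le_sum (g := fun j => lam j * (wtr τ b v).toReal) fun j _ => ?_).trans
        (by rw [← Finset.sum_mul, h1, one_mul])
      rw [Complex.re_ofReal_mul]
      exact mul_le_mul_of_nonneg_left (hbd j) (h0 j)
    have h3 := (Complex.re_le_norm _).trans h.le
    rw [Complex.sub_re, wpart_apply, Complex.re_sum] at h3
    linarith
  have haC : Cor A e₀ a := Cor.of_abs he₀.2 haA (by rw [hab _ he₀.1 _ haA, hae]) hae
  set c := ‖a‖ / 2 with hc
  have hna : 0 < ‖a‖ := norm_pos_iff.2 hane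
  have hc0 : 0 < c := by positivity
  obtain ⟨hPC, hP, hlow, hhigh⟩ := cut_above he₀.2 haC hasa hc0
  set P := spProj a c
  refine ⟨P, ⟨hPC.1, hP⟩, hPC.mul_right he₀.2, fun h0 => ?_, ?_⟩
  · have h := hhigh e₀ he₀.2 (by rw [h0, mul_zero])
    rw [haC.2] at h
    have h2 := norm_le_of_bounds hasa hc0.le
      (le_trans (by rw [neg_smul]; exact neg_nonpos.2 (smul_nonneg hc0.le zero_le_one)) ha0)
      (h.trans (smul_le_smul_of_nonneg_left (proj_le_one he₀.2) hc0.le))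
    linarith
  · have hle : P * a * P ≤ a := by
      obtain ⟨w, hw, hww, hwA⟩ : ∃ w : H →L[ℂ] H, star w = w ∧ w * w = a ∧ w ∈ A := by
        refine ⟨cfc Real.sqrt a, (cfc_predicate _ _ : IsSelfAdjoint (cfc Real.sqrt a)).star_eq, ?_,
          cfc_mem haA _⟩
        rw [← cfc_mul _ _ a]
        conv_rhs => rw [← cfc_id' ℝ a]
        exact cfc_congr fun x hx => Real.mul_self_sqrt (spectrum_nonneg_of_nonneg ha0 hx)
      have h := conj_le (proj_le_one hP) w
      rw [hw, mul_one, hww] at h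
      refine le_trans (le_of_eq ?_) h
      calc P * a * P = (P * w) * (w * P) := by rw [← hww]; simp only [mul_assoc]
        _ = (w * P) * (P * w) := by rw [hab _ hPC.1 _ hwA]
        _ = w * P * w := by rw [mul_assoc w P, ← mul_assoc P, hP.isIdempotentElem.eq, ← mul_assoc]
    intro htop
    have h : ENNReal.ofReal c * wtr τ b P ≤ wtr τ b v := by
      rw [← wtr_smul hc0.le]
      exact (hs.mono (vn_smul M c (hAM _ hPC.1)) (hAM _ haA) (hlow.trans hle)).trans hwa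
    rw [htop, ENNReal.mul_top (by simpa using hc0)] at h
    exact hfin (top_le_iff.1 h)

end Vale.Agent.P078.Semifinite.Corners
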