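import Vale.Agent.P078.Semifinite.Corners.Weight

/-!
Projections of finite trace have tracial corners.
-/

namespace Vale.Agent.P078.Semifinite.Corners

open MKS Singular Filter Topology
open scoped InnerProductSpace ENNReal

variable {H : Type} [NormedAddCommGroup H] [InnerProductSpace ℂ H] [CompleteSpace H]
variable {M : VonNeumannAlgebra H} {g z e : H →L[ℂ] H} {τ : (H →L[ℂ] H) →ₗ[ℂ] ℂ}
variable {ι : Type} {b : ι → (H →L[ℂ] H)}

/-- A finite part of the trace of the system. -/
noncomputable def wpart (τ : (H →L[ℂ] H) →ₗ[ℂ] ℂ) (b : ι → (H →L[ℂ] H)) (T : Finset ι) :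
    (H →L[ℂ] H) →ₗ[ℂ] ℂ :=
  ∑ i ∈ T, τ ∘ₗ LinearMap.mulLeftRight ℂ (b i, star (b i))

theorem nrm_zero (M : VonNeumannAlgebra H) : Nrm M (0 : (H →L[ℂ] H) →ₗ[ℂ] ℂ) :=
  fun η hη => ⟨∅, 1, one_pos, fun y _ _ _ => by simpa using hη⟩

theorem Nrm.add {φ ψ : (H →L[ℂ] H) →ₗ[ℂ] ℂ} (h1 : Nrm M φ) (h2 : Nrm M ψ) : Nrm M (φ + ψ) := by
  classical
  intro η hη
  obtain ⟨F, δ, hδ, hF⟩ := h1 (η / 2) (half_pos hη)
  obtain ⟨G, ζ, hζ, hG⟩ := h2 (η / 2) (half_pos hη)
  refine ⟨F ∪ G, min δ ζ, lt_min hδ hζ, fun y hy hy2 hys => ?_⟩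
  have a := hF y hy hy2 fun ξ hξ =>
    (hys ξ (Finset.mem_union_left _ hξ)).trans_le (min_le_left _ _)
  have c := hG y hy hy2 fun ξ hξ =>
    (hys ξ (Finset.mem_union_right _ hξ)).trans_le (min_le_right _ _)
  rw [LinearMap.add_apply]
  linarith [norm_add_le (φ y) (ψ y)]

theorem wpart_apply (T : Finset ι) (y : H →L[ℂ] H) :
    wpart τ b T y = ∑ i ∈ T, τ (b i * y * star (b i)) := by
  simp [wpart, LinearMap.sum_apply, LinearMap.mulLeftRight_apply]

variable (hs : Sys M g τ b z)
include hs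

theorem Sys.nrm_wpart (T : Finset ι) : Nrm M (wpart τ b T) := by
  classical
  induction T using Finset.induction_on with
  | empty => simpa [wpart] using nrm_zero M
  | @insert i T hi ih =>
      have e : wpart τ b (insert i T) =
          τ ∘ₗ LinearMap.mulLeftRight ℂ (b i, star (b i)) + wpart τ b T := by
        simp [wpart, Finset.sum_insert hi]
      rw [e]
      refine Nrm.add (fun η hη => ?_) ih
      obtain ⟨F, δ, hδ, hF⟩ := tr_small hs.tr hη
      refine ⟨F.image ⇑(star (b i)), δ, hδ, fun y hy hy2 hys => ?_⟩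
      rw [LinearMap.comp_apply, LinearMap.mulLeftRight_apply]
      have hb := hs.norm_le i
      refine hF _ (hs.cor i i hy) ?_ fun ξ hξ => ?_
      · refine norm_mul₃_le.trans ?_
        rw [norm_star]
        calc ‖b i‖ * ‖y‖ * ‖b i‖ ≤ 1 * 2 * 1 := by gcongr
          _ = 2 := by norm_num
      · rw [mul_apply_eq_comp, mul_apply_eq_comp]
        refine ((b i).le_opNorm _).trans_lt ?_
        exact lt_of_le_of_lt (mul_le_of_le_one_left (norm_nonneg _) hb)
          (hys _ (Finset.mem_image_of_mem _ hξ))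

theorem Sys.tr_bound_sa (he : IsPr M e) (i : ι) {y : H →L[ℂ] H} (hy : Cor M e y)
    (hys : IsSelfAdjoint y) :
    ‖τ (b i * y * star (b i))‖ ≤ ‖y‖ * (τ (b i * e * star (b i))).re := by
  obtain ⟨h1, h2⟩ := conj_bounds he.2 (bounds_of_norm_le hys le_rfl).1
    (bounds_of_norm_le hys le_rfl).2
  rw [hy.2] at h1 h2
  have hce : ∀ c : ℝ, Cor M e (c • e) := fun c => (cor_proj he.1 he.2).rsmul c
  have key : ∀ c : ℝ, b i * (c • e) * star (b i) = c • (b i * e * star (b i)) := fun c => by
    rw [mul_smul_comm, smul_mul_assoc]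
  have a := tr_mono hs.tr hs.proj (hs.cor i i (hce _).1) (hs.cor i i hy.1)
    (star_right_conjugate_le_conjugate h1 (b i))
  have c := tr_mono hs.tr hs.proj (hs.cor i i hy.1) (hs.cor i i (hce _).1)
    (star_right_conjugate_le_conjugate h2 (b i))
  rw [key, tr_rsmul] at a c
  have hpos : 0 ≤ y + ‖y‖ • e := by
    have := sub_nonneg.2 h1
    rwa [neg_smul, sub_neg_eq_add] at this
  have him0 := tr_im_zero hs.proj hs.tr (hs.cor i i he.1) (star_right_conjugate_nonneg he.2.nonneg _)
  have him1 := tr_im_zero hs.proj hs.tr (hs.cor i i (hy.add (hce ‖y‖)).1)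
    (star_right_conjugate_nonneg hpos _)
  rw [mul_add, add_mul, key, map_add, RCLike.real_smul_eq_coe_smul (K := ℂ), map_smul,
    Complex.add_im, smul_eq_mul] at him1
  simp only [RCLike.ofReal_eq_complex_ofReal, Complex.im_ofReal_mul, him0, mul_zero, add_zero]
    at him1
  have e2 : τ (b i * y * star (b i)) = (((τ (b i * y * star (b i))).re : ℝ) : ℂ) :=
    Complex.ext (by simp) (by simpa using him1)
  rw [e2, Complex.norm_real, Real.norm_eq_abs, abs_le]
  constructor <;> linarith

theorem Sys.tr_bound (he : IsPr M e) (i : ι) {y : H →L[ℂ] H} (hy : Cor M e y) :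
    ‖τ (b i * y * star (b i))‖ ≤ 2 * ‖y‖ * (τ (b i * e * star (b i))).re := by
  set h := (2⁻¹ : ℂ) • (y + star y) with hh
  set k := (2⁻¹ : ℂ) • ((-Complex.I) • (y - star y)) with hk
  have hhc : Cor M e h := (hy.add (hy.star' he.2)).csmul _
  have hkc : Cor M e k := ((hy.sub (hy.star' he.2)).csmul _).csmul _
  have hyhk : y = h + Complex.I • k := by
    rw [hh, hk, smul_smul, smul_smul]
    have : Complex.I * 2⁻¹ * -Complex.I = (2⁻¹ : ℂ) := by
      linear_combination (-(2⁻¹ : ℂ)) * Complex.I_mul_I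
    rw [this]
    module
  have hhs : IsSelfAdjoint h := by
    rw [isSelfAdjoint_iff, hh, star_smul, star_add, star_star, add_comm (star y)]
    simp
  have hks : IsSelfAdjoint k := by
    rw [isSelfAdjoint_iff, hk, star_smul, star_smul, star_sub, star_star]
    simp [smul_sub]
    abel
  have hhn : ‖h‖ ≤ ‖y‖ := by
    rw [hh, norm_smul, norm_inv, RCLike.norm_ofNat]
    linarith [norm_add_le y (star y), norm_star y]
  have hkn : ‖k‖ ≤ ‖y‖ := by
    rw [hk, norm_smul, norm_smul, norm_inv, RCLike.norm_ofNat, norm_neg, Complex.norm_I]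
    linarith [norm_sub_le y (star y), norm_star y]
  have h0 := hs.term_nonneg i he.1 he.2.nonneg
  have a := (hs.tr_bound_sa he i hhc hhs).trans (mul_le_mul_of_nonneg_right hhn h0)
  have c := (hs.tr_bound_sa he i hkc hks).trans (mul_le_mul_of_nonneg_right hkn h0)
  have e1 : τ (b i * y * star (b i)) =
      τ (b i * h * star (b i)) + Complex.I * τ (b i * k * star (b i)) := by
    conv_lhs => rw [hyhk]
    clear_value h k
    rw [mul_add, add_mul, map_add, mul_smul_comm, smul_mul_assoc, map_smul, smul_eq_mul]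
  rw [e1]
  refine (norm_add_le _ _).trans ?_
  rw [norm_mul, Complex.norm_I, one_mul]
  linarith

/-- A projection of finite trace has a faithful normal tracial functional on its corner. -/
theorem Sys.exists_trace (he : IsPr M e) (hez : e * z = e) (hfin : wtr τ b e ≠ ⊤) :
    ∃ τ' : (H →L[ℂ] H) →ₗ[ℂ] ℂ, IsTrace M e τ' := by
  classical
  have ht0 : ∀ i, 0 ≤ (τ (b i * e * star (b i))).re := fun i => hs.term_nonneg i he.1 he.2.nonneg
  have htsum : Summable fun i => (τ (b i * e * star (b i))).re :=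
    (ENNReal.summable_toReal hfin).congr fun i => ENNReal.toReal_ofReal (ht0 i)
  let S : Submodule ℂ (H →L[ℂ] H) :=
    { carrier := {y | Cor M e y}
      add_mem' := fun h h' => h.add h'
      zero_mem' := Cor.zero
      smul_mem' := fun c _ h => h.csmul c }
  have hsum : ∀ y, Cor M e y → Summable fun i => τ (b i * y * star (b i)) := fun y hy =>
    Summable.of_norm_bounded (htsum.mul_left (2 * ‖y‖)) fun i => hs.tr_bound he i hy
  let φ : S →ₗ[ℂ] ℂ :=
    { toFun := fun y => ∑' i, τ (b i * (y : H →L[ℂ] H) * star (b i))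
      map_add' := fun y w => by
        simp only [Submodule.coe_add, mul_add, add_mul, map_add]
        exact (hsum _ y.2).tsum_add (hsum _ w.2)
      map_smul' := fun c y => by
        simp only [Submodule.coe_smul, mul_smul_comm, smul_mul_assoc, map_smul, smul_eq_mul,
          RingHom.id_apply, tsum_mul_left] }
  obtain ⟨τ', hτ'⟩ := LinearMap.exists_extend φ
  have hval : ∀ y, Cor M e y → τ' y = ∑' i, τ (b i * y * star (b i)) := fun y hy =>
    LinearMap.congr_fun hτ' ⟨y, hy⟩
  have hre : ∀ y, Cor M e y → (τ' y).re = ∑' i, (τ (b i * y * star (b i))).re := fun y hy => by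
    rw [hval y hy, Complex.re_tsum (hsum y hy)]
  have hpos : ∀ y, Cor M e y → 0 ≤ y → wtr τ b y = ENNReal.ofReal (τ' y).re ∧ (τ' y).im = 0 ∧
      0 ≤ (τ' y).re := fun y hy h0 => by
    refine ⟨?_, ?_, ?_⟩
    · rw [hre y hy, wtr, ENNReal.ofReal_tsum_of_nonneg (fun i => hs.term_nonneg i hy.1 h0)]
      exact (Complex.hasSum_re (hsum y hy).hasSum).summable
    · rw [hval y hy, Complex.im_tsum (hsum y hy)]
      exact (tsum_congr fun i => tr_im_zero hs.proj hs.tr (hs.cor i i hy.1)
        (star_right_conjugate_nonneg h0 _)).trans tsum_zero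
    · rw [hre y hy]
      exact tsum_nonneg fun i => hs.term_nonneg i hy.1 h0
  have hdiag : ∀ x, Cor M e x → τ' (star x * x) = τ' (x * star x) := fun x hx => by
    obtain ⟨a1, a2, a3⟩ := hpos _ ((hx.star' he.2).mul he.2 hx) (star_mul_self_nonneg x)
    obtain ⟨c1, c2, c3⟩ := hpos _ (hx.mul he.2 (hx.star' he.2)) (mul_star_self_nonneg x)
    refine Complex.ext ?_ (a2.trans c2.symm)
    rw [← ENNReal.toReal_ofReal a3, ← ENNReal.toReal_ofReal c3, ← a1, ← c1, hs.comm hx.1]
  refine ⟨τ', fun y hyM hye => ?_, fun y hyM hye h0 => ?_, fun y hyM w hwM hye hwe => ?_,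
    fun η hη => ?_⟩
  · have hy : Cor M e y := ⟨hyM, hye⟩
    obtain ⟨-, a2, a3⟩ := hpos _ ((hy.star' he.2).mul he.2 hy) (star_mul_self_nonneg y)
    exact ⟨a3, a2⟩
  · have hy : Cor M e y := ⟨hyM, hye⟩
    have hc := (hy.star' he.2).mul he.2 hy
    obtain ⟨a1, -, -⟩ := hpos _ hc (star_mul_self_nonneg y)
    rw [h0, Complex.zero_re, ENNReal.ofReal_zero, wtr, ENNReal.tsum_eq_zero] at a1
    have hu : ∀ i, y * (star (b i) * b i) = 0 := fun i => by
      have h1 := eq_zero_of_tr hs.proj hs.tr (hs.cor i i hc.1)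
        (star_right_conjugate_nonneg (star_mul_self_nonneg y) _) (ENNReal.ofReal_eq_zero.1 (a1 i))
      have h2 : y * star (b i) = 0 := by
        rw [← CStarRing.star_mul_self_eq_zero_iff, star_mul, star_star, ← mul_assoc,
          mul_assoc (b i), h1]
      rw [← mul_assoc, h2, zero_mul]
    have hyz : y * z = y := by rw [← hy.mul_right he.2, mul_assoc, hez]
    refine ContinuousLinearMap.ext fun v => norm_le_zero_iff.1
      (le_of_forall_gt_imp_ge_of_dense fun δ hδ => ?_)
    obtain ⟨T, hT⟩ := hs.lim {v} (δ / (‖y‖ + 1)) (by positivity)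
    have e1 : y = y * (z - ∑ i ∈ T, star (b i) * b i) := by
      rw [mul_sub, Finset.mul_sum, Finset.sum_eq_zero fun i _ => hu i, sub_zero, hyz]
    rw [e1, mul_apply_eq_comp]
    refine (y.le_opNorm _).trans ((mul_le_mul_of_nonneg_left (hT v (by simp)).le
      (norm_nonneg _)).trans ?_)
    rw [mul_div_assoc', div_le_iff₀ (by positivity)]
    nlinarith [norm_nonneg y]
  · -- polarisation of the trace property
    have hy : Cor M e y := ⟨hyM, hye⟩
    have hw : Cor M e w := ⟨hwM, hwe⟩
    have hu := hy.star' he.2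
    have h1 := hdiag _ (hu.add hw)
    have h2 := hdiag _ (hu.add (hw.csmul Complex.I))
    simp only [star_add, star_star, star_smul, mul_add, add_mul, map_add, mul_smul_comm,
      smul_mul_assoc, map_smul, smul_eq_mul, hdiag _ hw] at h1 h2
    have h3 : τ' (y * star y) = τ' (star y * y) := (hdiag y hy).symm
    simp only [Complex.star_def, Complex.conj_I] at h2
    rw [h3] at h1 h2
    linear_combination (1/2 : ℂ) * h1 - (Complex.I / 2) * h2 +
      ((τ' (y * w) - τ' (w * y) - τ' (star w * star y) + τ' (star y * star w)) / 2) *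
        Complex.I_mul_I
  · set t := fun i => (τ (b i * e * star (b i))).re
    have htail := tendsto_tsum_compl_atTop_zero t
    obtain ⟨T, hT⟩ := ((Metric.tendsto_nhds.1 htail) (η / 4) (by positivity)).exists
    obtain ⟨F, δ, hδ, hF⟩ := hs.nrm_wpart T (η / 2) (half_pos hη)
    refine ⟨F, δ, hδ, fun y hyM hye hy1 hys => ?_⟩
    have hy : Cor M e y := ⟨hyM, hye⟩
    have h1 := hF y hyM (hy1.trans one_le_two) hys
    rw [wpart_apply] at h1
    rw [hval y hy, ← (hsum y hy).sum_add_tsum_compl (s := T)]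
    refine (norm_add_le _ _).trans_lt ?_
    have hsub : Summable fun i : ↥((↑T : Set ι)ᶜ) => t i := htsum.subtype _
    have h2 : ‖∑' i : ↥((↑T : Set ι)ᶜ), τ (b i * y * star (b i))‖ ≤ η / 2 := by
      refine (tsum_of_norm_bounded (hsub.mul_left (2 * ‖y‖)).hasSum
        fun i => hs.tr_bound he (i : ι) hy).trans ?_
      rw [tsum_mul_left]
      rw [dist_zero_right, Real.norm_of_nonneg (tsum_nonneg fun i => ht0 _)] at hT
      calc 2 * ‖y‖ * ∑' i : ↥((↑T : Set ι)ᶜ), t i ≤ 2 * 1 * (η / 4) := by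
            refine mul_le_mul (by linarith) ?_ (tsum_nonneg fun i => ht0 _) (by norm_num)
            exact hT.le
        _ = η / 2 := by ring
    linarith

end Vale.Agent.P078.Semifinite.Corners
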