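import Vale.Agent.P078.MKS.OpDefs

/-!
Von Neumann algebras with enough tracial corners, and filling of a projection of a MASA by
tracial corners.
-/

namespace Vale.Agent.P078.Semifinite.Corners

open MKS Singular

variable {H : Type} [NormedAddCommGroup H] [InnerProductSpace ℂ H] [CompleteSpace H]

/-- Every nonzero projection of `M` dominates a nonzero projection whose
corner has a faithful normal finite trace. -/
def HasTracialCorners (M : VonNeumannAlgebra H) : Prop :=
  ∀ g ∈ M, IsStarProjection g → g ≠ 0 → ∃ e ∈ M, IsStarProjection e ∧ e * g = e ∧ e ≠ 0 ∧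
    ∃ τ : (H →L[ℂ] H) →ₗ[ℂ] ℂ, IsTrace M e τ

/-- Projections of `A` below `p` whose corners have faithful normal finite traces tend strongly to
`p`. -/
def TracesFill (M A : VonNeumannAlgebra H) (p : H →L[ℂ] H) : Prop :=
  ∀ (F : Finset H) (δ : ℝ), 0 < δ → ∃ (e : H →L[ℂ] H) (τ : (H →L[ℂ] H) →ₗ[ℂ] ℂ),
    e ∈ A ∧ IsStarProjection e ∧ e * p = e ∧ IsTrace M e τ ∧ ∀ ξ ∈ F, ‖(p - e) ξ‖ < δ

end Vale.Agent.P078.Semifinite.Corners
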