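import Vale.Agent.P078.Semifinite.Corners.Average
import Vale.Agent.P078.Singular.Main

/-!
In a semifinite algebra tracial corners of the MASA fill the complement of the null projection of
the normal central functionals.
-/

namespace Vale.Agent.P078.Semifinite.Corners

open MKS Singular Filter Topology
open scoped InnerProductSpace ENNReal

variable {H : Type} [NormedAddCommGroup H] [InnerProductSpace ℂ H] [CompleteSpace H]
variable {M A : VonNeumannAlgebra H} {g z : H →L[ℂ] H} {τ : (H →L[ℂ] H) →ₗ[ℂ] ℂ}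
variable {ι : Type} {b : ι → (H →L[ℂ] H)}

/-- Normal central functionals killing a family kill its supremum. -/
theorem central_sup {f : (H →L[ℂ] H) →ₗ[ℂ] ℂ} (hf : IsNormalCentral M A f)
    {N : VonNeumannAlgebra H} {p Q : H →L[ℂ] H} {K : (H →L[ℂ] H) → Prop} {S : Set (H →L[ℂ] H)}
    (hNM : ∀ y ∈ N, y ∈ M) (hS : Fam N p K S) (hQ : IsPr N Q)
    (hle : ∀ T : Finset (H →L[ℂ] H), (∀ u ∈ T, u ∈ S) → (∑ u ∈ T, u) * Q = ∑ u ∈ T, u)
    (happ : ∀ (F : Finset H) (δ : ℝ), 0 < δ → ∃ T : Finset (H →L[ℂ] H), (∀ u ∈ T, u ∈ S) ∧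
      ∀ ξ ∈ F, ‖(Q - ∑ u ∈ T, u) ξ‖ < δ)
    (h0 : ∀ u ∈ S, f u = 0) : f Q = 0 := by
  refine eq_zero_of_small fun ε hε => ?_
  obtain ⟨F, δ, hδ, hfF⟩ := hf.2.2 ε hε
  obtain ⟨T, hT, hTF⟩ := happ F δ hδ
  have h := hfF (Q - ∑ u ∈ T, u) (hNM _ (sub_mem hQ.1 (hS.sum_pr T hT).1.1))
    (sub_proj hQ.2 (hS.sum_pr T hT).1.2 (hle T hT)).norm_le hTF
  rw [map_sub, map_sum, Finset.sum_eq_zero fun u hu => h0 u (hT u hu), sub_zero] at h
  exact h.le

/-- Below the central support of a tracial corner finite trace projections of the MASA fill. -/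
theorem Sys.fill (hs : Sys M g τ b z) (hA : IsMASA M A) {p₀ p : H →L[ℂ] H}
    (hsep : ∀ e, IsPr A e → e * p₀ = 0 → e ≠ 0 → ∃ f, IsNormalCentral M A f ∧ f e ≠ 0)
    (hp : IsPr A p) (hpz : p * z = p) (hp0 : p * p₀ = 0) : TracesFill M A p := by
  classical
  have hAM := hA.1
  obtain ⟨S, Q, hS, hQ, hQp, hmax, hle, happ⟩ := exhaust A p hp.2 fun u => wtr τ b u ≠ ⊤
  have hpQ : p = Q := by
    by_contra hne
    have he₀ : IsPr A (p - Q) := ⟨sub_mem hp.1 hQ.1, sub_proj hp.2 hQ.2 hQp⟩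
    have hep : (p - Q) * p = p - Q := by rw [sub_mul, hp.2.isIdempotentElem.eq, hQp]
    obtain ⟨f, hf, hfe⟩ := hsep _ he₀
      (by rw [← hep, mul_assoc, hp0, mul_zero]) (sub_ne_zero.2 hne)
    obtain ⟨S', Q', hS', hQ', hQe, hmax', hle', happ'⟩ :=
      exhaust M (p - Q) he₀.2 fun u => wtr τ b u ≠ ⊤
    have hQ'e : Q' = p - Q := by
      by_contra hne'
      have hu : IsPr M (p - Q - Q') :=
        ⟨sub_mem (hAM _ he₀.1) hQ'.1, sub_proj he₀.2 hQ'.2 hQe⟩
      have hue : (p - Q - Q') * (p - Q) = p - Q - Q' := by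
        rw [sub_mul, he₀.2.isIdempotentElem.eq, hQe]
      have huz : (p - Q - Q') * z = p - Q - Q' := by
        rw [← hue, mul_assoc]
        congr 1
        rw [← hep, mul_assoc, hpz]
      obtain ⟨v, hv, hvu, hv0, hvfin⟩ :=
        hs.exists_fin_sub hu huz (sub_ne_zero.2 (Ne.symm hne'))
      exact hmax' v hv hv0 hvu hvfin
    obtain ⟨v, hvS, hfv⟩ : ∃ v ∈ S', f v ≠ 0 := by
      by_contra! h
      exact hfe (hQ'e ▸ central_sup hf (fun _ h => h) hS' hQ' hle' happ' h)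
    obtain ⟨hv, hve, -, hvfin⟩ := hS'.1 v hvS
    obtain ⟨P, hP, hPe, hP0, hPfin⟩ := hs.exists_fin_masa hA he₀ hv hve hvfin hf hfv
    exact hmax P hP hP0 hPe hPfin
  intro F δ hδ
  obtain ⟨T, hT, hTF⟩ := happ F δ hδ
  obtain ⟨hTP, hTp⟩ := hS.sum_pr T hT
  have hfin : wtr τ b (∑ u ∈ T, u) ≠ ⊤ := by
    rw [← Finset.sum_coe_sort]
    rw [hs.sum _ (fun u : T => (u : H →L[ℂ] H)) fun u =>
      ⟨hAM _ (hS.1 _ (hT _ u.2)).1.1, (hS.1 _ (hT _ u.2)).1.2.nonneg⟩]
    exact ENNReal.sum_ne_top.2 fun u _ => (hS.1 _ (hT _ u.2)).2.2.2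
  obtain ⟨τ', hτ'⟩ := hs.exists_trace ⟨hAM _ hTP.1, hTP.2⟩
    (by rw [← hTp, mul_assoc, hpz]) hfin
  exact ⟨_, τ', hTP.1, hTP.2, hTp, hτ', fun ξ hξ => by rw [hpQ]; exact hTF ξ hξ⟩

/-- Traces on corners under pairwise orthogonal central projections add up. -/
theorem exists_sum_trace {κ : Type} [Fintype κ] {s e : κ → (H →L[ℂ] H)}
    {t : κ → (H →L[ℂ] H) →ₗ[ℂ] ℂ} (hs : ∀ k, IsPr M (s k))
    (hc : ∀ k, ∀ y ∈ M, s k * y = y * s k) (horth : ∀ k l, k ≠ l → s k * s l = 0)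
    (he : ∀ k, IsPr M (e k)) (hes : ∀ k, e k * s k = e k) (ht : ∀ k, IsTrace M (e k) (t k)) :
    ∃ τ' : (H →L[ℂ] H) →ₗ[ℂ] ℂ, IsTrace M (∑ k, e k) τ' := by
  classical
  set τ' : (H →L[ℂ] H) →ₗ[ℂ] ℂ :=
    ∑ k, t k ∘ₗ LinearMap.mulLeftRight ℂ (e k, e k) with hτ'
  have hse : ∀ k, s k * ∑ l, e l = e k := fun k => by
    rw [Finset.mul_sum, Finset.sum_eq_single k]
    · rw [hc k _ (he k).1, hes k]
    · intro l _ hlk
      rw [← hes l, hc l _ (he l).1 |>.symm, ← mul_assoc, horth k l (Ne.symm hlk), zero_mul]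
    · simp
  have hes' : ∀ k, (∑ l, e l) * s k = e k := fun k => by
    rw [← hc k _ (sum_mem fun l _ => (he l).1), hse k]
  have hval : ∀ y, τ' y = ∑ k, t k (e k * y * e k) := fun y => by
    simp [hτ', LinearMap.sum_apply, LinearMap.mulLeftRight_apply]
  have hblock : ∀ k y, Cor M (∑ l, e l) y →
      s k * y = e k * y * e k ∧ Cor M (e k) (s k * y) := fun k y hy => by
    have h1 : s k * y = e k * y * e k := by
      calc s k * y = s k * s k * y := by rw [(hs k).2.isIdempotentElem.eq]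
        _ = s k * y * s k := by rw [mul_assoc, mul_assoc, ← hc k y hy.1]
        _ = s k * ((∑ l, e l) * y * (∑ l, e l)) * s k := by rw [hy.2]
        _ = e k * y * e k := by rw [← mul_assoc, ← mul_assoc, hse, mul_assoc, hes']
    refine ⟨h1, mul_mem (hs k).1 hy.1, ?_⟩
    rw [h1, ← mul_assoc, ← mul_assoc, (he k).2.isIdempotentElem.eq, mul_assoc _ (e k) (e k),
      (he k).2.isIdempotentElem.eq]
  have heM : ∀ k y, y ∈ M → Cor M (e k) (e k * y * e k) := fun k y hy =>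
    ⟨mul_mem (mul_mem (he k).1 hy) (he k).1, by
      rw [← mul_assoc, ← mul_assoc, (he k).2.isIdempotentElem.eq, mul_assoc _ (e k) (e k),
        (he k).2.isIdempotentElem.eq]⟩
  have hmul : ∀ k y w, Cor M (∑ l, e l) y → Cor M (∑ l, e l) w →
      Cor M (∑ l, e l) (y * w) → e k * (y * w) * e k = (s k * y) * (s k * w) := by
    intro k y w hy _ hyw
    rw [← (hblock k _ hyw).1, mul_assoc (s k) y, ← mul_assoc y (s k), ← hc k y hy.1,
      mul_assoc (s k) y w, ← mul_assoc (s k) (s k), (hs k).2.isIdempotentElem.eq]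
  have hE : IsStarProjection (∑ l, e l) := by
    refine ⟨?_, by
      rw [isSelfAdjoint_iff, star_sum]
      exact Finset.sum_congr rfl fun l _ => (he l).2.isSelfAdjoint.star_eq⟩
    show (∑ l, e l) * (∑ l, e l) = ∑ l, e l
    rw [Finset.sum_mul]
    refine Finset.sum_congr rfl fun k _ => ?_
    conv_lhs => rw [← hes k, mul_assoc, hse k]
    exact (he k).2.isIdempotentElem.eq
  have hsq : ∀ k y, Cor M (∑ l, e l) y →
      e k * (star y * y) * e k = star (s k * y) * (s k * y) := fun k y hy => by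
    rw [hmul k _ _ (hy.star' hE) hy ((hy.star' hE).mul hE hy), star_mul,
      (hs k).2.isSelfAdjoint.star_eq, ← hc k _ (star_mem hy.1)]
  refine ⟨τ', fun y hyM hye => ?_, fun y hyM hye h0 => ?_, fun y hyM w hwM hye hwe => ?_,
    fun η hη => ?_⟩
  · have hy : Cor M (∑ l, e l) y := ⟨hyM, hye⟩
    rw [hval, Complex.re_sum, Complex.im_sum]
    simp only [hsq _ y hy]
    exact ⟨Finset.sum_nonneg fun k _ => ((ht k).1 _ (hblock k y hy).2.1 (hblock k y hy).2.2).1,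
      Finset.sum_eq_zero fun k _ => ((ht k).1 _ (hblock k y hy).2.1 (hblock k y hy).2.2).2⟩
  · have hy : Cor M (∑ l, e l) y := ⟨hyM, hye⟩
    rw [hval] at h0
    simp only [hsq _ y hy] at h0
    have hz : ∀ k, s k * y = 0 := fun k => by
      have hp := fun j => (ht j).1 _ (hblock j y hy).2.1 (hblock j y hy).2.2
      refine (ht k).2.1 _ (hblock k y hy).2.1 (hblock k y hy).2.2 (Complex.ext ?_ (hp k).2)
      have h1 := congrArg Complex.re h0
      rw [Complex.re_sum, Complex.zero_re] at h1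
      exact (Finset.sum_eq_zero_iff_of_nonneg fun j _ => (hp j).1).1 h1 k (Finset.mem_univ k)
    rw [← hy.mul_left hE, Finset.sum_mul]
    refine Finset.sum_eq_zero fun k _ => ?_
    rw [← hes k, mul_assoc, hz k, mul_zero]
  · have hy : Cor M (∑ l, e l) y := ⟨hyM, hye⟩
    have hw : Cor M (∑ l, e l) w := ⟨hwM, hwe⟩
    rw [hval, hval]
    refine Finset.sum_congr rfl fun k _ => ?_
    rw [hmul k y w hy hw (hy.mul hE hw), hmul k w y hw hy (hw.mul hE hy)]
    exact (ht k).2.2.1 _ (hblock k y hy).2.1 _ (hblock k w hw).2.1 (hblock k y hy).2.2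
      (hblock k w hw).2.2
  · obtain ⟨η', hη', hsum⟩ : ∃ η' : ℝ, 0 < η' ∧ Fintype.card κ * η' < η :=
      ⟨η / (Fintype.card κ + 1), by positivity, by
        rw [mul_div_assoc', div_lt_iff₀ (by positivity)]; nlinarith⟩
    choose F δ hδ hF using fun k => (ht k).2.2.2 η' hη'
    obtain ⟨δ₀, hδ₀, hle⟩ : ∃ δ₀ : ℝ, 0 < δ₀ ∧ ∀ k, δ₀ ≤ δ k := by
      rcases isEmpty_or_nonempty κ with h | h
      · exact ⟨1, one_pos, fun k => (h.false k).elim⟩
      · exact ⟨Finset.univ.inf' Finset.univ_nonempty δ,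
          (Finset.lt_inf'_iff _).2 fun k _ => hδ k,
          fun k => Finset.inf'_le δ (Finset.mem_univ k)⟩
    refine ⟨Finset.univ.biUnion fun k => (F k).image ⇑(e k), δ₀, hδ₀, fun y hyM _ hy1 hys => ?_⟩
    rw [hval]
    refine lt_of_le_of_lt ((norm_sum_le _ _).trans
      (Finset.sum_le_sum (g := fun _ => η') fun k _ => ?_)) (by simpa using hsum)
    refine (hF k _ (heM k y hyM).1 (heM k y hyM).2 ?_ fun ξ hξ => ?_).le
    · refine norm_mul₃_le.trans ?_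
      calc ‖e k‖ * ‖y‖ * ‖e k‖ ≤ 1 * 1 * 1 := by
            gcongr <;> exact (he k).2.norm_le
        _ = 1 := by norm_num
    · rw [mul_apply_eq_comp, mul_apply_eq_comp]
      exact (norm_proj_apply_le (he k).2 _).trans_lt ((hys _ (Finset.mem_biUnion.2
        ⟨k, Finset.mem_univ k, Finset.mem_image_of_mem _ hξ⟩)).trans_le (hle k))

/-- In a semifinite algebra tracial corners fill the complement of the null projection. -/
theorem traces_fill (hM : HasTracialCorners M) (hA : IsMASA M A) {p₀ : H →L[ℂ] H} (hp₀ : IsPr A p₀)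
    (hsep : ∀ e, IsPr A e → e * p₀ = 0 → e ≠ 0 → ∃ f, IsNormalCentral M A f ∧ f e ≠ 0) :
    TracesFill M A (1 - p₀) := by
  classical
  obtain ⟨hAM, hab, hmaxA⟩ := hA
  have hA' : IsMASA M A := ⟨hAM, hab, hmaxA⟩
  have hp1 : IsPr A (1 - p₀) := ⟨sub_mem (one_mem A) hp₀.1, hp₀.2.one_sub⟩
  obtain ⟨S, Q, hS, hQ, -, hmax, hle, happ⟩ := exhaust A 1 (.one _)
    fun s => (∀ y ∈ M, s * y = y * s) ∧
      ∀ p, IsPr A p → p * s = p → p * p₀ = 0 → TracesFill M A p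
  have hQc : ∀ y ∈ M, Q * y = y * Q := fun y hy => by
    refine ContinuousLinearMap.ext fun v => eq_of_sub_eq_zero (norm_le_zero_iff.1
      (le_of_forall_gt_imp_ge_of_dense fun δ hδ => ?_))
    obtain ⟨T, hT, hTF⟩ := happ {y v, v} (δ / (2 + 2 * ‖y‖)) (by positivity)
    have hU : (∑ u ∈ T, u) * y = y * ∑ u ∈ T, u := by
      rw [Finset.sum_mul, Finset.mul_sum]
      exact Finset.sum_congr rfl fun u hu => (hS.1 u (hT u hu)).2.2.2.1 y hy
    have e1 : (Q * y) v - (y * Q) v =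
        (Q - ∑ u ∈ T, u) (y v) - y ((Q - ∑ u ∈ T, u) v) := by
      rw [← mul_apply_eq_comp, ← mul_apply_eq_comp, sub_mul, mul_sub, hU, sub_apply, sub_apply]
      abel
    rw [e1]
    refine (norm_sub_le _ _).trans ((add_le_add (hTF _ (by simp)).le
      ((y.le_opNorm _).trans (mul_le_mul_of_nonneg_left (hTF v (by simp)).le
        (norm_nonneg _)))).trans ?_)
    have h3 : δ / (2 + 2 * ‖y‖) + ‖y‖ * (δ / (2 + 2 * ‖y‖)) = δ / 2 := by field_simp
    rw [h3]; linarith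
  have hcov : (1 - p₀) * Q = 1 - p₀ := by
    by_contra hne
    set e₀ := (1 - p₀) * (1 - Q) with he₀def
    have hQ1 : IsPr A (1 - Q) := ⟨sub_mem (one_mem A) hQ.1, hQ.2.one_sub⟩
    have he₀ : IsPr A e₀ := isPr_mul hab hp1 hQ1
    have he0 : e₀ ≠ 0 := fun h => hne (by rwa [he₀def, mul_sub, mul_one, sub_eq_zero,
      eq_comm] at h)
    obtain ⟨g, hgM, hg, hge, hg0, τ, hτ⟩ := hM e₀ (hAM _ he₀.1) he₀.2 he0
    obtain ⟨ι, b, z, hs⟩ := exists_sys hgM hg hτ
    have hzA : z ∈ A := hmaxA z hs.zpr.1 fun y hy => (hs.zcomm y (hAM _ hy)).symm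
    have hzQ : IsPr A (z * (1 - Q)) := isPr_mul hab ⟨hzA, hs.zpr.2⟩ hQ1
    have hgQ : g * (1 - Q) = g := by
      rw [← hge, mul_assoc, he₀def, mul_assoc, hQ1.2.isIdempotentElem.eq]
    have hzne : z * (1 - Q) ≠ 0 := fun h => hg0 (by
      rw [← hgQ, ← hs.gz, mul_assoc, h, mul_zero])
    refine hmax _ hzQ hzne (by rw [mul_assoc, hQ1.2.isIdempotentElem.eq]) ⟨fun y hy => ?_,
      fun p hp hps hpp => hs.fill hA' hsep hp ?_ hpp⟩
    · have h1 : (1 - Q) * y = y * (1 - Q) := by rw [sub_mul, mul_sub, one_mul, mul_one, hQc y hy]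
      rw [mul_assoc, h1, ← mul_assoc, hs.zcomm y hy, mul_assoc]
    · conv_lhs => rw [← hps, mul_assoc, hab _ hzQ.1 _ hzA, ← mul_assoc z z,
        hs.zpr.2.isIdempotentElem.eq, hps]
  intro F δ hδ
  obtain ⟨T, hT, hTF⟩ := happ (F.image ⇑(1 - p₀)) (δ / 2) (half_pos hδ)
  obtain ⟨δ', hδ', hcard⟩ : ∃ δ' : ℝ, 0 < δ' ∧ T.card * δ' ≤ δ / 2 :=
    ⟨δ / 2 / (T.card + 1), by positivity, by
      rw [mul_div_assoc', div_le_iff₀ (by positivity)]; nlinarith⟩
  have hsA : ∀ u : T, IsPr A (u : H →L[ℂ] H) := fun u => (hS.1 _ (hT _ u.2)).1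
  choose e t he1 he2 he3 he4 he5 using fun u : T =>
    (hS.1 _ (hT _ u.2)).2.2.2.2 ((1 - p₀) * u) (isPr_mul hab hp1 (hsA u))
      (by rw [mul_assoc, (hsA u).2.isIdempotentElem.eq])
      (by rw [hab _ hp1.1 _ (hsA u).1, mul_assoc, hp₀.2.one_sub_mul_self, mul_zero]) F δ' hδ'
  have hes : ∀ u : T, e u * (u : H →L[ℂ] H) = e u := fun u => by
    conv_lhs => rw [← he3 u, mul_assoc, mul_assoc, (hsA u).2.isIdempotentElem.eq, he3 u]
  have horth : ∀ u v : T, u ≠ v → (u : H →L[ℂ] H) * v = 0 := fun u v h =>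
    hS.2 (hT _ u.2) (hT _ v.2) fun h' => h (Subtype.ext h')
  obtain ⟨τ', hτ'⟩ := exists_sum_trace (κ := T) (s := fun u => (u : H →L[ℂ] H)) (e := e) (t := t)
    (fun u => ⟨hAM _ (hsA u).1, (hsA u).2⟩) (fun u => (hS.1 _ (hT _ u.2)).2.2.2.1) horth
    (fun u => ⟨hAM _ (he1 u), he2 u⟩) hes he4
  have hep : ∀ u, e u * (1 - p₀) = e u := fun u => by
    conv_lhs => rw [← he3 u, mul_assoc, mul_assoc, hab _ (hsA u).1 _ hp1.1,
      ← mul_assoc (1 - p₀) (1 - p₀), hp1.2.isIdempotentElem.eq, he3 u]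
  refine ⟨∑ u, e u, τ', sum_mem fun u _ => he1 u, ?_,
    by rw [Finset.sum_mul]; exact Finset.sum_congr rfl fun u _ => hep u, hτ', fun ξ hξ => ?_⟩
  · refine ⟨?_, by
      rw [isSelfAdjoint_iff, star_sum]
      exact Finset.sum_congr rfl fun u _ => (he2 u).isSelfAdjoint.star_eq⟩
    show (∑ u, e u) * (∑ u, e u) = ∑ u, e u
    rw [Finset.sum_mul]
    refine Finset.sum_congr rfl fun u _ => ?_
    rw [Finset.mul_sum, Finset.sum_eq_single u]
    · exact (he2 u).isIdempotentElem.eq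
    · intro v _ hvu
      rw [← hes u, ← hes v, mul_assoc (e u), hab (e v) (he1 v) _ (hsA v).1,
        ← mul_assoc (u : H →L[ℂ] H), horth u v (Ne.symm hvu), zero_mul, mul_zero]
    · simp
  · have e1 : ((1 - p₀) - ∑ u, e u) ξ =
        (Q - ∑ u ∈ T, u) ((1 - p₀) ξ) + ∑ u : T, ((1 - p₀) * (u : H →L[ℂ] H) - e u) ξ := by
      rw [← sum_apply, Finset.sum_sub_distrib, ← Finset.mul_sum, Finset.sum_coe_sort T (fun u => u),
        hab _ hp1.1 _ (sum_mem fun u hu => (hS.1 u (hT u hu)).1.1), ← mul_apply_eq_comp, sub_mul,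
        hab _ hQ.1 _ hp1.1, hcov, ← add_apply]
      congr 1
      abel
    rw [e1]
    refine lt_of_le_of_lt (norm_add_le _ _) ?_
    have h2 : ‖∑ u : T, ((1 - p₀) * (u : H →L[ℂ] H) - e u) ξ‖ ≤ δ / 2 := by
      refine (norm_sum_le _ _).trans ((Finset.sum_le_sum (g := fun _ => δ') fun u _ =>
        (he5 u ξ hξ).le).trans ?_)
      simpa using hcard
    linarith [hTF _ (Finset.mem_image_of_mem _ hξ)]

end Vale.Agent.P078.Semifinite.Corners
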