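import Vale.Agent.P078.Semifinite.Corners.Fill
import Vale.Agent.P078.Semifinite.Defs

/-!
In a semifinite algebra the traces on corners of a MASA fill up the part of the normal central
functionals (`traces_fill_ok`).
-/

namespace Vale.Agent.P078.Semifinite.Corners

open MKS Singular

variable {H : Type} [NormedAddCommGroup H] [InnerProductSpace ℂ H] [CompleteSpace H]
variable {M : VonNeumannAlgebra H}

/-- A partial isometry into a tracial corner makes its initial corner tracial. -/
theorem isTrace_comap {g c u : H →L[ℂ] H} {τ : (H →L[ℂ] H) →ₗ[ℂ] ℂ} (hg : IsStarProjection g)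
    (hτ : IsTrace M g τ) (hc : c ∈ M) (hgc : g * c = c) (hu : IsPr M u) (hcc : star c * c = u) :
    IsTrace M u (τ ∘ₗ LinearMap.mulLeftRight ℂ (c, star c)) := by
  have hcu := mul_eq_of_star_mul hu.2 hcc
  have hcg : star c * g = star c := by
    simpa [star_mul, hg.isSelfAdjoint.star_eq] using congrArg star hgc
  have hn : ‖c‖ ≤ 1 := by
    have h : ‖star c * c‖ ≤ 1 := hcc ▸ hu.2.norm_le
    rw [CStarRing.norm_star_mul_self] at h
    nlinarith [norm_nonneg c]
  have hcor : ∀ y ∈ M, Cor M g (c * y * star c) := fun y hy =>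
    Cor.of_abs hg (mul_mem (mul_mem hc hy) (star_mem hc))
      (by rw [← mul_assoc, ← mul_assoc, hgc]) (by rw [mul_assoc, hcg])
  have hmul : ∀ y w, y ∈ M → u * y * u = y →
      c * (y * w) * star c = (c * y * star c) * (c * w * star c) := fun y w hyM hy => by
    have hyu : y * u = y := by
      conv_lhs => rw [← hy, mul_assoc, hu.2.isIdempotentElem.eq, hy]
    calc c * (y * w) * star c = c * (y * u * w) * star c := by rw [hyu]
      _ = _ := by rw [← hcc]; simp only [mul_assoc]
  have hsq : ∀ y, y ∈ M → u * y * u = y →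
      c * (star y * y) * star c = star (c * y * star c) * (c * y * star c) := fun y hyM hy => by
    have h1 : u * star y * u = star y := by
      simpa [star_mul, hu.2.isSelfAdjoint.star_eq, mul_assoc] using congrArg star hy
    rw [hmul _ y (star_mem hyM) h1]
    simp only [star_mul, star_star, mul_assoc]
  have happ : ∀ y, (τ ∘ₗ LinearMap.mulLeftRight ℂ (c, star c)) y = τ (c * y * star c) := fun y => by
    simp [LinearMap.mulLeftRight_apply]
  refine ⟨fun y hyM hy => ?_, fun y hyM hy h0 => ?_, fun y hyM w hwM hy hw => ?_, fun η hη => ?_⟩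
  · rw [happ, hsq y hyM hy]
    exact hτ.1 _ (hcor y hyM).1 (hcor y hyM).2
  · rw [happ, hsq y hyM hy] at h0
    have h := hτ.2.1 _ (hcor y hyM).1 (hcor y hyM).2 h0
    have e : u * y * u = star c * (c * y * star c) * c := by rw [← hcc]; simp only [mul_assoc]
    rw [← hy, e, h, mul_zero, zero_mul]
  · rw [happ, happ, hmul y w hyM hy, hmul w y hwM hw]
    exact hτ.2.2.1 _ (hcor y hyM).1 _ (hcor w hwM).1 (hcor y hyM).2 (hcor w hwM).2
  · obtain ⟨F, δ, hδ, hF⟩ := hτ.2.2.2 η hη
    classical
    refine ⟨F.image ⇑(star c), δ, hδ, fun y hyM _ hy1 hys => ?_⟩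
    rw [happ]
    refine hF _ (hcor y hyM).1 (hcor y hyM).2 ?_ fun ξ hξ => ?_
    · refine norm_mul₃_le.trans ?_
      rw [norm_star]
      calc ‖c‖ * ‖y‖ * ‖c‖ ≤ 1 * 1 * 1 := by gcongr
        _ = 1 := by norm_num
    · rw [mul_apply_eq_comp, mul_apply_eq_comp]
      exact lt_of_le_of_lt ((c.le_opNorm _).trans (mul_le_of_le_one_left (norm_nonneg _) hn))
        (hys _ (Finset.mem_image_of_mem _ hξ))

/-- In a semifinite algebra every nonzero projection dominates a tracial corner. -/
theorem hasTracialCorners (hM : Semifinite.IsSemifinite M) : HasTracialCorners M := by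
  intro p hpM hp hp0
  obtain ⟨ξ, hξ⟩ : ∃ ξ : H, p ξ ≠ 0 := by
    by_contra! h
    exact hp0 (ContinuousLinearMap.ext h)
  obtain ⟨g, τ, hgM, hg, hτ, hgF⟩ := hM {p ξ} ‖p ξ‖ (norm_pos_iff.2 hξ)
  have hgp : g * p ≠ 0 := fun h => by
    have h1 : g (p ξ) = 0 := DFunLike.congr_fun h ξ
    have h2 := hgF (p ξ) (by simp)
    rw [sub_apply, one_apply_eq_self, h1, sub_zero] at h2
    exact lt_irrefl _ h2
  obtain ⟨c, hcM, hgc, hcp, hu, hu0⟩ := exists_iso (M := M) (g := g) hp (mul_mem hgM hpM)
    (by rw [← mul_assoc, hg.isIdempotentElem.eq]) (by rw [mul_assoc, hp.isIdempotentElem.eq]) hgp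
  exact ⟨_, hu.1, hu.2, by rw [mul_assoc, hcp], hu0, _, isTrace_comap hg hτ hcM hgc hu rfl⟩

/-- The traces on corners of a MASA of a semifinite algebra fill up the part of the normal
central functionals. -/
theorem traces_fill_ok : TracesFillStatement := by
  intro H _ _ _ M A hA hM p hpA hp hsep
  have h := traces_fill (hasTracialCorners hM) hA (p₀ := 1 - p)
    ⟨sub_mem (one_mem A) hpA, hp.one_sub⟩ fun e he he0 hne => hsep e he.1 he.2
      (by rw [mul_sub, mul_one, sub_eq_zero] at he0; exact he0.symm) hne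
  intro F δ hδ
  obtain ⟨e, τ, h1, h2, h3, h4, h5⟩ := h F δ hδ
  rw [sub_sub_cancel] at h3 h5
  exact ⟨e, τ, h1, h2, h3, h4, h5⟩

end Vale.Agent.P078.Semifinite.Corners
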