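import Vale.Agent.P078.Semifinite.Corners.Defs
import Vale.Agent.P078.MKS.Assembly.L2

/-!
Partial isometries from spectral cuts, and elementary facts on traces of corners.
-/

namespace Vale.Agent.P078.Semifinite.Corners

open MKS Singular

variable {H : Type} [NormedAddCommGroup H] [InnerProductSpace ℂ H] [CompleteSpace H]
variable {M A : VonNeumannAlgebra H}

/-- A nonzero `g x w` gives a partial isometry into `g` supported below `w`. -/
theorem exists_iso {g w x : H →L[ℂ] H} (hw : IsStarProjection w) (hxM : x ∈ M) (hgx : g * x = x)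
    (hxw : x * w = x) (hx0 : x ≠ 0) :
    ∃ b ∈ M, g * b = b ∧ b * w = b ∧ IsPr M (star b * b) ∧ star b * b ≠ 0 := by
  set y := star x * x with hy
  have hwy : w * y = y := by
    have h := congrArg star hxw
    rw [star_mul, hw.isSelfAdjoint.star_eq] at h
    rw [hy, ← mul_assoc, h]
  have hyw : y * w = y := by rw [hy, mul_assoc, hxw]
  have hyC : Cor M w y := Cor.of_abs hw (mul_mem (star_mem hxM) hxM) hwy hyw
  have hys : IsSelfAdjoint y := IsSelfAdjoint.star_mul_self x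
  have hyn : 0 < ‖y‖ := norm_pos_iff.2 fun h => hx0 (CStarRing.star_mul_self_eq_zero_iff x |>.1 h)
  set c := ‖y‖ / 2 with hc
  have hc0 : 0 < c := by positivity
  obtain ⟨hPC, hP, -, hcut⟩ := cut_above hw hyC hys hc0
  set P := spProj y c
  set k := cfc (fun s : ℝ => (Real.sqrt (max s c))⁻¹) y with hk
  have hks : star k = k := (cfc_predicate _ _ : IsSelfAdjoint k).star_eq
  have hne : ∀ s : ℝ, Real.sqrt (max s c) ≠ 0 := fun s =>
    (Real.sqrt_pos.2 (lt_max_of_lt_right hc0)).ne'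
  have hcont : ContinuousOn (fun s : ℝ => (Real.sqrt (max s c))⁻¹) (spectrum ℝ y) :=
    ContinuousOn.inv₀ (by fun_prop) fun s _ => hne s
  have hG : k * y * k * P = P := by
    have e : k * y * k = cfc (fun s : ℝ => (Real.sqrt (max s c))⁻¹ * s *
        (Real.sqrt (max s c))⁻¹) y := by
      have hc2 : ContinuousOn (fun s : ℝ => (Real.sqrt (max s c))⁻¹ * s) (spectrum ℝ y) :=
        hcont.mul continuousOn_id
      rw [cfc_mul (fun s : ℝ => (Real.sqrt (max s c))⁻¹ * s) _ y hc2 hcont,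
        cfc_mul _ (fun s : ℝ => s) y hcont continuousOn_id, cfc_id' ℝ y]
    have h0 : (k * y * k - 1) * P = 0 := by
      refine mul_spProj_eq_zero ?_
      have hcF : ContinuousOn (fun s : ℝ => (Real.sqrt (max s c))⁻¹ * s *
          (Real.sqrt (max s c))⁻¹) (spectrum ℝ y) := (hcont.mul continuousOn_id).mul hcont
      have hc1 : ContinuousOn (fun s : ℝ => (Real.sqrt (max s c))⁻¹ * s *
          (Real.sqrt (max s c))⁻¹ - 1) (spectrum ℝ y) := hcF.sub continuousOn_const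
      rw [e, ← cfc_const_one ℝ y, ← cfc_sub _ (fun _ : ℝ => (1 : ℝ)) y hcF continuousOn_const,
        ← cfc_mul _ _ y hc1 (by fun_prop)]
      conv_rhs => rw [← cfc_const_zero ℝ y]
      refine cfc_congr fun s _ => ?_
      rcases le_total s c with h | h
      · simp [h]
      · have hs : 0 < s := hc0.trans_le h
        rw [max_eq_left h]
        have : Real.sqrt s * Real.sqrt s = s := Real.mul_self_sqrt hs.le
        field_simp
        rw [sq, this]
        ring
    rwa [sub_mul, one_mul, sub_eq_zero] at h0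
  refine ⟨x * k * P, mul_mem (mul_mem hxM (cfc_mem hyC.1 _)) hPC.1, ?_, ?_, ?_, ?_⟩
  · rw [← mul_assoc, ← mul_assoc, hgx]
  · rw [mul_assoc, hPC.mul_right hw]
  all_goals
    have hb : star (x * k * P) * (x * k * P) = P := by
      rw [star_mul, star_mul, hks, hP.isSelfAdjoint.star_eq]
      calc P * (k * star x) * (x * k * P) = P * (k * y * k * P) := by
            rw [hy]; simp only [mul_assoc]
        _ = P := by rw [hG, hP.isIdempotentElem.eq]
    rw [hb]
  · exact ⟨hPC.1, hP⟩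
  · intro h0
    have h := hcut w hw (by rw [h0, mul_zero])
    rw [hwy, hyw] at h
    have h1 : c • w ≤ c • (1 : H →L[ℂ] H) := smul_le_smul_of_nonneg_left (proj_le_one hw) hc0.le
    have h2 : ‖y‖ ≤ c := norm_le_of_bounds hys hc0.le
      (le_trans (by rw [neg_smul]; exact neg_nonpos.2 (smul_nonneg hc0.le zero_le_one))
        (star_mul_self_nonneg x)) (h.trans h1)
    linarith

variable {g : H →L[ℂ] H} {τ : (H →L[ℂ] H) →ₗ[ℂ] ℂ}

/-- Values of a trace on self-adjoint elements are real, and on positive ones not negative. -/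
theorem tr_im_zero (hg : IsStarProjection g) (hτ : IsTrace M g τ) {y : H →L[ℂ] H}
    (hy : Cor M g y) (h0 : 0 ≤ y) : (τ y).im = 0 := by
  set w := cfc Real.sqrt y with hwdef
  have hws : star w = w := (cfc_predicate _ _ : IsSelfAdjoint (cfc Real.sqrt y)).star_eq
  have hww : w * w = y := by
    rw [hwdef, ← cfc_mul _ _ y]
    conv_rhs => rw [← cfc_id' ℝ y]
    exact cfc_congr fun x hx => Real.mul_self_sqrt (spectrum_nonneg_of_nonneg h0 hx)
  have h1 : w * (1 - g) = 0 := by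
    rw [← CStarRing.star_mul_self_eq_zero_iff, star_mul, hws, hg.one_sub.isSelfAdjoint.star_eq,
      mul_assoc, ← mul_assoc w, hww, sub_mul, one_mul, ← mul_assoc, hy.mul_left hg, sub_self]
  have h2 : w * g = w := by rw [mul_sub, mul_one, sub_eq_zero] at h1; exact h1.symm
  have h3 : g * w = w := by
    simpa [star_mul, hws, hg.isSelfAdjoint.star_eq] using congrArg star h2
  have hw : Cor M g w := Cor.of_abs hg (cfc_mem hy.1 _) h3 h2
  have := (hτ.1 w hw.1 hw.2).2
  rwa [hws, hww] at this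

/-- A positive element of the corner with trace zero is zero. -/
theorem eq_zero_of_tr (hg : IsStarProjection g) (hτ : IsTrace M g τ) {y : H →L[ℂ] H}
    (hy : Cor M g y) (h0 : 0 ≤ y) (h : (τ y).re ≤ 0) : y = 0 := by
  obtain ⟨s, hs, hss, hsc⟩ : ∃ s : H →L[ℂ] H, star s = s ∧ s * s = y ∧ s ∈ M := by
    refine ⟨cfc Real.sqrt y, (cfc_predicate _ _ : IsSelfAdjoint (cfc Real.sqrt y)).star_eq, ?_,
      cfc_mem hy.1 _⟩
    rw [← cfc_mul _ _ y]
    conv_rhs => rw [← cfc_id' ℝ y]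
    exact cfc_congr fun x hx => Real.mul_self_sqrt (spectrum_nonneg_of_nonneg h0 hx)
  have h1 : s * (1 - g) = 0 := by
    rw [← CStarRing.star_mul_self_eq_zero_iff, star_mul, hs, hg.one_sub.isSelfAdjoint.star_eq,
      mul_assoc, ← mul_assoc s, hss, sub_mul, one_mul, ← mul_assoc, hy.mul_left hg, sub_self]
  have h2 : s * g = s := by rw [mul_sub, mul_one, sub_eq_zero] at h1; exact h1.symm
  have h3 : g * s = s := by
    simpa [star_mul, hs, hg.isSelfAdjoint.star_eq] using congrArg star h2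
  have hsC : Cor M g s := Cor.of_abs hg hsc h3 h2
  have h4 := hτ.1 s hsC.1 hsC.2
  rw [← hss, hτ.2.1 s hsC.1 hsC.2 ?_, zero_mul]
  refine Complex.ext (le_antisymm ?_ h4.1) h4.2
  rw [hs, hss]; exact h

/-- Normality of a linear functional on bounded sets of `M`. -/
def Nrm (M : VonNeumannAlgebra H) (φ : (H →L[ℂ] H) →ₗ[ℂ] ℂ) : Prop :=
  ∀ η : ℝ, 0 < η → ∃ (F : Finset H) (δ : ℝ), 0 < δ ∧
    ∀ y ∈ M, ‖y‖ ≤ 2 → (∀ ξ ∈ F, ‖y ξ‖ < δ) → ‖φ y‖ < η

/-- A functional continuous on the unit ball of a set is continuous on twice the ball. -/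
theorem small_two {S : (H →L[ℂ] H) → Prop} (hS : ∀ y, S y → S ((2⁻¹ : ℂ) • y))
    {φ : (H →L[ℂ] H) →ₗ[ℂ] ℂ}
    (hφ : ∀ η : ℝ, 0 < η → ∃ (F : Finset H) (δ : ℝ), 0 < δ ∧
      ∀ y, S y → ‖y‖ ≤ 1 → (∀ ξ ∈ F, ‖y ξ‖ < δ) → ‖φ y‖ < η) {η : ℝ} (hη : 0 < η) :
    ∃ (F : Finset H) (δ : ℝ), 0 < δ ∧
      ∀ y, S y → ‖y‖ ≤ 2 → (∀ ξ ∈ F, ‖y ξ‖ < δ) → ‖φ y‖ < η := by
  obtain ⟨F, δ, hδ, h⟩ := hφ (η / 2) (half_pos hη)
  refine ⟨F, δ, hδ, fun y hy hy2 hyF => ?_⟩
  have h1 := h _ (hS y hy) (by rw [norm_smul, norm_inv, RCLike.norm_ofNat]; linarith)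
    (fun ξ hξ => by
      rw [smul_apply, norm_smul, norm_inv, RCLike.norm_ofNat]
      linarith [hyF ξ hξ, norm_nonneg (y ξ)])
  rw [map_smul, norm_smul, norm_inv, RCLike.norm_ofNat] at h1
  linarith

theorem nrm_of_central {f : (H →L[ℂ] H) →ₗ[ℂ] ℂ} (hf : IsNormalCentral M A f) : Nrm M f := by
  intro η hη
  obtain ⟨F, δ, hδ, h⟩ := small_two (S := fun y => y ∈ M)
    (fun y hy => M.toStarSubalgebra.smul_mem hy _) hf.2.2 hη
  exact ⟨F, δ, hδ, h⟩

theorem tr_small (hτ : IsTrace M g τ) {η : ℝ} (hη : 0 < η) :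
    ∃ (F : Finset H) (δ : ℝ), 0 < δ ∧
      ∀ y, Cor M g y → ‖y‖ ≤ 2 → (∀ ξ ∈ F, ‖y ξ‖ < δ) → ‖τ y‖ < η := by
  refine small_two (fun y hy => hy.csmul _) (fun η hη => ?_) hη
  obtain ⟨F, δ, hδ, h⟩ := hτ.2.2.2 η hη
  exact ⟨F, δ, hδ, fun y hy => h y hy.1 hy.2⟩

end Vale.Agent.P078.Semifinite.Corners
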