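import Vale.Agent.P078.Semifinite.Corners.Partial
import Vale.Agent.P078.Singular.Exhaust
import Vale.Agent.P078.Singular.Refine

/-!
The semifinite trace on the central support of a projection with a tracial corner.
-/

namespace Vale.Agent.P078.Semifinite.Corners

open MKS Singular
open scoped InnerProductSpace ENNReal

variable {H : Type} [NormedAddCommGroup H] [InnerProductSpace ℂ H] [CompleteSpace H]
variable {M A : VonNeumannAlgebra H} {g z : H →L[ℂ] H} {τ : (H →L[ℂ] H) →ₗ[ℂ] ℂ}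
variable {ι : Type} {b : ι → (H →L[ℂ] H)}

/-- A family of partial isometries into the tracial corner `g` whose initial projections add up to
the central projection `z`. -/
structure Sys (M : VonNeumannAlgebra H) (g : H →L[ℂ] H) (τ : (H →L[ℂ] H) →ₗ[ℂ] ℂ)
    (b : ι → (H →L[ℂ] H)) (z : H →L[ℂ] H) : Prop where
  mem : g ∈ M
  proj : IsStarProjection g
  tr : IsTrace M g τ
  zpr : IsPr M z
  zcomm : ∀ y ∈ M, z * y = y * z
  gz : g * z = g
  left : ∀ i, b i ∈ M ∧ g * b i = b i ∧ b i * z = b i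
  part : ∀ T : Finset ι, IsStarProjection (z - ∑ i ∈ T, star (b i) * b i)
  lim : ∀ (F : Finset H) (δ : ℝ), 0 < δ → ∃ T : Finset ι,
    ∀ ξ ∈ F, ‖(z - ∑ i ∈ T, star (b i) * b i) ξ‖ < δ

theorem mul_eq_of_star_mul {c u : H →L[ℂ] H} (hu : IsStarProjection u) (h : star c * c = u) :
    c * u = c := by
  have h1 : star (c - c * u) * (c - c * u) = 0 := by
    have e : c - c * u = c * (1 - u) := by rw [mul_sub, mul_one]
    rw [e, star_mul, hu.one_sub.isSelfAdjoint.star_eq, mul_assoc, ← mul_assoc (star c), h,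
      hu.mul_one_sub_self, mul_zero]
  exact (sub_eq_zero.1 ((CStarRing.star_mul_self_eq_zero_iff _).1 h1)).symm

/-- The central support of a tracial corner, with a covering family. -/
theorem exists_sys (hgM : g ∈ M) (hg : IsStarProjection g) (hτ : IsTrace M g τ) :
    ∃ (ι : Type) (b : ι → (H →L[ℂ] H)) (z : H →L[ℂ] H), Sys M g τ b z := by
  classical
  obtain ⟨S, Q, hS, hQ, -, hmax, hle, happ⟩ := exhaust M 1 (.one _)
    fun u => ∃ c ∈ M, g * c = c ∧ star c * c = u
  choose c hcM hgc hcc using fun u : S => (hS.1 u u.2).2.2.2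
  have hcQ : ∀ u : S, c u * Q = c u := fun u => by
    have h1 := hle {(u : H →L[ℂ] H)} (by simp)
    simp only [Finset.sum_singleton] at h1
    have h2 := mul_eq_of_star_mul (hS.1 u u.2).1.2 (hcc u)
    rw [← h2, mul_assoc, h1]
  have hg0 : ∀ y ∈ M, g * y * (1 - Q) = 0 := fun y hy => by
    by_contra hne
    obtain ⟨d, hdM, hgd, hdw, hP, hP0⟩ := exists_iso (M := M) (g := g) (w := 1 - Q) hQ.2.one_sub
      (mul_mem (mul_mem hgM hy) (sub_mem (one_mem _) hQ.1))
      (by rw [← mul_assoc, ← mul_assoc, hg.isIdempotentElem.eq])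
      (by rw [mul_assoc, hQ.2.one_sub.isIdempotentElem.eq]) hne
    exact hmax _ hP hP0 (by rw [mul_assoc, hdw]) ⟨d, hdM, hgd, rfl⟩
  have hsum : ∀ T : Finset S,
      ∑ i ∈ T, star (c i) * c i = ∑ u ∈ T.map (Function.Embedding.subtype _), u := fun T => by
    rw [Finset.sum_map]
    exact Finset.sum_congr rfl fun i _ => hcc i
  have hmap : ∀ T : Finset S, ∀ u ∈ T.map (Function.Embedding.subtype _), u ∈ S := fun T u hu => by
    obtain ⟨v, -, rfl⟩ := Finset.mem_map.1 hu
    exact v.2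
  have hlim : ∀ (F : Finset H) (δ : ℝ), 0 < δ → ∃ T : Finset S,
      ∀ ξ ∈ F, ‖(Q - ∑ i ∈ T, star (c i) * c i) ξ‖ < δ := fun F δ hδ => by
    obtain ⟨T, hT, hTF⟩ := happ F δ hδ
    refine ⟨T.subtype (· ∈ S), fun ξ hξ => ?_⟩
    rw [hsum, Finset.subtype_map, Finset.filter_true_of_mem hT]
    exact hTF ξ hξ
  have hcomm : ∀ y ∈ M, Q * y = y * Q := by
    have h0 : ∀ y ∈ M, (1 - Q) * y * Q = 0 := fun y hy => by
      have hu : ∀ i : S, (1 - Q) * y * (star (c i) * c i) = 0 := fun i => by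
        have h1 := hg0 _ (mul_mem (hcM i) (star_mem hy))
        rw [← mul_assoc, hgc] at h1
        have h2 := congrArg star h1
        simp only [star_mul, star_star, star_zero, hQ.2.one_sub.isSelfAdjoint.star_eq] at h2
        calc (1 - Q) * y * (star (c i) * c i) = (1 - Q) * (y * star (c i)) * c i := by
              simp only [mul_assoc]
          _ = 0 := by rw [h2, zero_mul]
      refine ContinuousLinearMap.ext fun v => norm_le_zero_iff.1
        (le_of_forall_gt_imp_ge_of_dense fun δ hδ => ?_)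
      obtain ⟨T, hT⟩ := hlim {v} (δ / (‖(1 - Q) * y‖ + 1)) (by positivity)
      have e : (1 - Q) * y * Q = (1 - Q) * y * (Q - ∑ i ∈ T, star (c i) * c i) := by
        rw [mul_sub, Finset.mul_sum, Finset.sum_eq_zero fun i _ => hu i, sub_zero]
      rw [e, mul_apply_eq_comp]
      refine (((1 - Q) * y).le_opNorm _).trans ((mul_le_mul_of_nonneg_left
        (hT v (by simp)).le (norm_nonneg _)).trans ?_)
      rw [mul_div_assoc', div_le_iff₀ (by positivity)]
      nlinarith [norm_nonneg ((1 - Q) * y)]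
    intro y hy
    have h1 := h0 y hy
    have h2 := congrArg star (h0 _ (star_mem hy))
    simp only [star_mul, star_star, star_zero, hQ.2.one_sub.isSelfAdjoint.star_eq,
      hQ.2.isSelfAdjoint.star_eq, ← mul_assoc] at h2
    rw [sub_mul, one_mul, sub_mul, sub_eq_zero] at h1
    rw [mul_sub, mul_one, sub_eq_zero] at h2
    rw [h2, h1]
  refine ⟨S, c, Q, hgM, hg, hτ, hQ, hcomm, ?_, fun i => ⟨hcM i, hgc i, hcQ i⟩, fun T => ?_, hlim⟩
  · have h := hg0 1 (one_mem _)
    rw [mul_one, mul_sub, mul_one, sub_eq_zero] at h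
    exact h.symm
  · rw [hsum]
    exact sub_proj hQ.2 (hS.sum_pr _ (hmap T)).1.2 (hle _ (hmap T))

/-- The trace of the system. -/
noncomputable def wtr (τ : (H →L[ℂ] H) →ₗ[ℂ] ℂ) (b : ι → (H →L[ℂ] H)) (x : H →L[ℂ] H) : ℝ≥0∞ :=
  ∑' i, ENNReal.ofReal (τ (b i * x * star (b i))).re

variable (hs : Sys M g τ b z)
include hs

theorem Sys.star_left (i : ι) : star (b i) * g = star (b i) ∧ z * star (b i) = star (b i) := by
  constructor
  · simpa [star_mul, hs.proj.isSelfAdjoint.star_eq] using congrArg star (hs.left i).2.1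
  · simpa [star_mul, hs.zpr.2.isSelfAdjoint.star_eq] using congrArg star (hs.left i).2.2

theorem Sys.cor (i j : ι) {x : H →L[ℂ] H} (hx : x ∈ M) :
    Cor M g (b i * x * star (b j)) :=
  Cor.of_abs hs.proj (mul_mem (mul_mem (hs.left i).1 hx) (star_mem (hs.left j).1))
    (by rw [← mul_assoc, ← mul_assoc, (hs.left i).2.1])
    (by rw [mul_assoc, (hs.star_left j).1])

theorem Sys.norm_le (i : ι) : ‖b i‖ ≤ 1 := by
  classical
  have hp := hs.part {i}
  simp only [Finset.sum_singleton] at hp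
  have h1 : star (b i) * b i ≤ 1 := by
    have h2 : star (b i) * b i ≤ z := sub_nonneg.1 hp.nonneg
    exact h2.trans (proj_le_one hs.zpr.2)
  have h2 : ‖star (b i) * b i‖ ≤ 1 :=
    norm_le_of_bounds (IsSelfAdjoint.star_mul_self _) zero_le_one
      (le_trans (by rw [neg_smul, one_smul]; exact neg_nonpos.2 zero_le_one)
        (star_mul_self_nonneg _)) (by rwa [one_smul])
  rw [CStarRing.norm_star_mul_self] at h2
  nlinarith [norm_nonneg (b i)]

theorem Sys.term_nonneg (i : ι) {x : H →L[ℂ] H} (hx : x ∈ M) (h0 : 0 ≤ x) :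
    0 ≤ (τ (b i * x * star (b i))).re :=
  tr_nonneg hs.tr hs.proj (hs.cor i i hx) (star_right_conjugate_nonneg h0 _)

theorem Sys.tr_split {c : H →L[ℂ] H} (hc : c ∈ M) (hcg : c * g = c) :
    ∑' j, ENNReal.ofReal (τ (star c * (star (b j) * b j) * c)).re =
      ENNReal.ofReal (τ (star c * z * c)).re := by
  classical
  have hgc : g * star c = star c := by
    simpa [star_mul, hs.proj.isSelfAdjoint.star_eq] using congrArg star hcg
  have hC : ∀ X ∈ M, Cor M g (star c * X * c) := fun X hX =>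
    Cor.of_abs hs.proj (mul_mem (mul_mem (star_mem hc) hX) hc)
      (by rw [← mul_assoc, ← mul_assoc, hgc]) (by rw [mul_assoc, hcg])
  have hnn : ∀ j, 0 ≤ (τ (star c * (star (b j) * b j) * c)).re := fun j =>
    tr_nonneg hs.tr hs.proj (hC _ (mul_mem (star_mem (hs.left j).1) (hs.left j).1))
      (star_left_conjugate_nonneg (star_mul_self_nonneg _) c)
  have hUM : ∀ T : Finset ι, ∑ j ∈ T, star (b j) * b j ∈ M := fun T =>
    sum_mem fun j _ => mul_mem (star_mem (hs.left j).1) (hs.left j).1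
  have hfin : ∀ T : Finset ι, (τ (star c * z * c)).re =
      ∑ j ∈ T, (τ (star c * (star (b j) * b j) * c)).re +
        (τ (star c * (z - ∑ j ∈ T, star (b j) * b j) * c)).re := fun T => by
    rw [← Complex.re_sum, ← map_sum, ← Finset.sum_mul, ← Finset.mul_sum, ← Complex.add_re,
      ← map_add, ← add_mul, ← mul_add, add_sub_cancel]
  apply le_antisymm
  · rw [ENNReal.tsum_eq_iSup_sum]
    refine iSup_le fun T => ?_
    rw [← ENNReal.ofReal_sum_of_nonneg fun j _ => hnn j]
    refine ENNReal.ofReal_le_ofReal ?_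
    rw [hfin T]
    exact le_add_of_nonneg_right (tr_nonneg hs.tr hs.proj (hC _ (sub_mem hs.zpr.1 (hUM T)))
      (star_left_conjugate_nonneg (hs.part T).nonneg c))
  · refine ENNReal.le_of_forall_pos_le_add fun η hη _ => ?_
    set K := ‖c‖ ^ 2 + 1 with hK
    have hK0 : 0 < K := by positivity
    obtain ⟨F, δ, hδ, hF⟩ := tr_small hs.tr (η := η / K) (by positivity)
    obtain ⟨T, hT⟩ := hs.lim (F.image c) (δ / (‖c‖ + 1)) (by positivity)
    set R := z - ∑ j ∈ T, star (b j) * b j with hR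
    have hRM : R ∈ M := sub_mem hs.zpr.1 (hUM T)
    have hsmall : (τ (star c * R * c)).re ≤ η := by
      have hy : Cor M g ((K⁻¹ : ℂ) • (star c * R * c)) := (hC R hRM).csmul _
      have hn : ‖star c * R * c‖ ≤ ‖c‖ ^ 2 := by
        refine (norm_mul₃_le).trans ?_
        rw [norm_star]
        have : ‖R‖ ≤ 1 := (hs.part T).norm_le
        nlinarith [norm_nonneg c, norm_nonneg R]
      have hKn : ‖(K : ℂ)⁻¹‖ = K⁻¹ := by
        rw [norm_inv, Complex.norm_real, Real.norm_of_nonneg hK0.le]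
      have h1 := hF _ hy (by
        rw [norm_smul, hKn, inv_mul_le_iff₀ hK0]
        nlinarith) (fun ξ hξ => by
        rw [smul_apply, norm_smul, hKn, inv_mul_lt_iff₀ hK0, mul_apply_eq_comp, mul_apply_eq_comp]
        refine ((star c).le_opNorm _).trans_lt ?_
        rw [norm_star]
        have h2 := hT (c ξ) (Finset.mem_image_of_mem _ hξ)
        calc ‖c‖ * ‖R (c ξ)‖ ≤ (‖c‖ + 1) * ‖R (c ξ)‖ := by nlinarith [norm_nonneg (R (c ξ))]
          _ < (‖c‖ + 1) * (δ / (‖c‖ + 1)) := mul_lt_mul_of_pos_left h2 (by positivity)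
          _ = δ := by field_simp
          _ ≤ K * δ := le_mul_of_one_le_left hδ.le (by simp [hK]))
      rw [map_smul, norm_smul, hKn, inv_mul_lt_iff₀ hK0, mul_div_cancel₀ _ hK0.ne'] at h1
      exact (Complex.re_le_norm _).trans h1.le
    calc ENNReal.ofReal (τ (star c * z * c)).re
        ≤ ENNReal.ofReal (∑ j ∈ T, (τ (star c * (star (b j) * b j) * c)).re + η) :=
          ENNReal.ofReal_le_ofReal (by rw [hfin T]; exact add_le_add le_rfl hsmall)
      _ ≤ _ := by
          refine ENNReal.ofReal_add_le.trans (add_le_add ?_ (by simp))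
          rw [ENNReal.ofReal_sum_of_nonneg fun j _ => hnn j]
          exact ENNReal.sum_le_tsum T

/-- The trace property. -/
theorem Sys.comm {x : H →L[ℂ] H} (hx : x ∈ M) :
    wtr τ b (star x * x) = wtr τ b (x * star x) := by
  have h1 : ∀ (i : ι) (y : H →L[ℂ] H), y ∈ M →
      ENNReal.ofReal (τ (b i * (star y * y) * star (b i))).re =
        ∑' j, ENNReal.ofReal (τ (star (b j * y * star (b i)) * (b j * y * star (b i)))).re := by
    intro i y hy
    have h := hs.tr_split (c := y * star (b i)) (mul_mem hy (star_mem (hs.left i).1))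
      (by rw [mul_assoc, (hs.star_left i).1])
    have e : z * (y * star (b i)) = y * star (b i) := by
      rw [← mul_assoc, hs.zcomm y hy, mul_assoc, (hs.star_left i).2]
    rw [mul_assoc _ z, e] at h
    simp only [star_mul, star_star, mul_assoc] at h ⊢
    exact h.symm
  unfold wtr
  rw [tsum_congr fun i => h1 i x hx]
  have h2 : ∀ j, ENNReal.ofReal (τ (b j * (x * star x) * star (b j))).re =
      ∑' i, ENNReal.ofReal (τ (star (b j * x * star (b i)) * (b j * x * star (b i)))).re := by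
    intro j
    have h := h1 j (star x) (star_mem hx)
    rw [star_star] at h
    rw [h]
    refine tsum_congr fun i => ?_
    have hY := hs.cor j i hx
    have he : star (b i * star x * star (b j)) = b j * x * star (b i) := by
      simp [star_mul, mul_assoc]
    rw [he, show b i * star x * star (b j) = star (b j * x * star (b i)) by
      simp [star_mul, mul_assoc],
      hs.tr.2.2.1 _ hY.1 _ (hY.star' hs.proj).1 hY.2 (hY.star' hs.proj).2]
  rw [tsum_congr h2, ENNReal.tsum_comm]

theorem Sys.add {x y : H →L[ℂ] H} (hx : x ∈ M) (hx0 : 0 ≤ x) (hy : y ∈ M) (hy0 : 0 ≤ y) :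
    wtr τ b (x + y) = wtr τ b x + wtr τ b y := by
  rw [wtr, wtr, wtr, ← ENNReal.tsum_add]
  refine tsum_congr fun i => ?_
  rw [← ENNReal.ofReal_add (hs.term_nonneg i hx hx0) (hs.term_nonneg i hy hy0), mul_add, add_mul,
    map_add, Complex.add_re]

omit hs in
theorem wtr_zero : wtr τ b 0 = 0 := by simp [wtr]

theorem Sys.sum {κ : Type} (T : Finset κ) (f : κ → (H →L[ℂ] H))
    (hf : ∀ k, f k ∈ M ∧ 0 ≤ f k) : wtr τ b (∑ k ∈ T, f k) = ∑ k ∈ T, wtr τ b (f k) := by
  classical
  induction T using Finset.induction_on with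
  | empty => simp [wtr_zero]
  | @insert k T hk ih =>
      rw [Finset.sum_insert hk, Finset.sum_insert hk,
        hs.add (hf k).1 (hf k).2 (sum_mem fun j _ => (hf j).1)
          (Finset.sum_nonneg fun j _ => (hf j).2), ih]

theorem Sys.mono {x y : H →L[ℂ] H} (hx : x ∈ M) (hy : y ∈ M) (h : x ≤ y) :
    wtr τ b x ≤ wtr τ b y := by
  refine ENNReal.tsum_le_tsum fun i => ENNReal.ofReal_le_ofReal ?_
  exact tr_mono hs.tr hs.proj (hs.cor i i hx) (hs.cor i i hy)
    (star_right_conjugate_le_conjugate h _)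

omit hs in
theorem wtr_smul {c : ℝ} (hc : 0 ≤ c) (x : H →L[ℂ] H) :
    wtr τ b (c • x) = ENNReal.ofReal c * wtr τ b x := by
  rw [wtr, wtr, ← ENNReal.tsum_mul_left]
  refine tsum_congr fun i => ?_
  rw [← ENNReal.ofReal_mul hc, mul_smul_comm, smul_mul_assoc, tr_rsmul]

theorem Sys.wtr_g : wtr τ b g ≠ ⊤ := by
  have h := hs.tr_split (c := g) hs.mem hs.proj.isIdempotentElem.eq
  rw [hs.proj.isSelfAdjoint.star_eq] at h
  have e : ∀ i, τ (b i * g * star (b i)) = τ (g * (star (b i) * b i) * g) := fun i => by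
    have hY : Cor M g (b i * g) := Cor.of_abs hs.proj (mul_mem (hs.left i).1 hs.mem)
      (by rw [← mul_assoc, (hs.left i).2.1]) (by rw [mul_assoc, hs.proj.isIdempotentElem.eq])
    have h := hs.tr.2.2.1 _ (hY.star' hs.proj).1 _ hY.1 (hY.star' hs.proj).2 hY.2
    rw [star_mul, hs.proj.isSelfAdjoint.star_eq] at h
    rw [show g * (star (b i) * b i) * g = g * star (b i) * (b i * g) by simp only [mul_assoc], h]
    congr 1
    rw [mul_assoc (b i) g (g * _), ← mul_assoc g g, hs.proj.isIdempotentElem.eq, mul_assoc]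
  simp only [wtr, e]
  rw [h]
  exact ENNReal.ofReal_ne_top

/-- Below `z` there are nonzero projections of finite trace. -/
theorem Sys.exists_fin_sub {u : H →L[ℂ] H} (hu : IsPr M u) (huz : u * z = u) (hu0 : u ≠ 0) :
    ∃ v, IsPr M v ∧ v * u = v ∧ v ≠ 0 ∧ wtr τ b v ≠ ⊤ := by
  classical
  obtain ⟨i, hi⟩ : ∃ i, b i * u ≠ 0 := by
    by_contra! h
    refine hu0 (ContinuousLinearMap.ext fun v => norm_le_zero_iff.1
      (le_of_forall_gt_imp_ge_of_dense fun δ hδ => ?_))
    obtain ⟨T, hT⟩ := hs.lim {u v} δ hδ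
    have e : u = (z - ∑ i ∈ T, star (b i) * b i) * u := by
      rw [sub_mul, Finset.sum_mul, Finset.sum_eq_zero fun i _ => by rw [mul_assoc, h i, mul_zero],
        sub_zero, hs.zcomm u hu.1, huz]
    rw [e, mul_apply_eq_comp]
    exact (hT _ (by simp)).le
  obtain ⟨c, hcM, hgc, hcu, hP, hP0⟩ := exists_iso (M := M) (g := g) hu.2
    (mul_mem (hs.left i).1 hu.1) (by rw [← mul_assoc, (hs.left i).2.1])
    (by rw [mul_assoc, hu.2.isIdempotentElem.eq]) hi
  refine ⟨_, hP, by rw [mul_assoc, hcu], hP0, ne_top_of_le_ne_top hs.wtr_g ?_⟩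
  rw [hs.comm hcM]
  refine hs.mono (mul_mem hcM (star_mem hcM)) hs.mem ?_
  have hn : ‖c * star c‖ ≤ 1 := by
    rw [CStarRing.norm_self_mul_star, ← CStarRing.norm_star_mul_self]
    exact hP.2.norm_le
  have hcg : star c * g = star c := by
    simpa [star_mul, hs.proj.isSelfAdjoint.star_eq] using congrArg star hgc
  have h := conj_le (bounds_of_norm_le (IsSelfAdjoint.mul_star_self c) hn).2 g
  rw [hs.proj.isSelfAdjoint.star_eq, one_smul, mul_one, hs.proj.isIdempotentElem.eq,
    ← mul_assoc g, hgc, mul_assoc, hcg] at h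
  exact h

/-- Pinching by a partition of the unit preserves the trace of a projection. -/
theorem Sys.wtr_pinch {K : ℕ} {P : Fin K → (H →L[ℂ] H)} (hP : IsPart A P)
    (hAM : ∀ y ∈ A, y ∈ M) {v : H →L[ℂ] H} (hv : IsPr M v) :
    wtr τ b (Vale.Agent.P078.pinch P v) = wtr τ b v := by
  have hvv := hv.2.isIdempotentElem.eq
  have hvs := hv.2.isSelfAdjoint.star_eq
  have e1 : ∀ k, P k * v * P k = star (v * P k) * (v * P k) := fun k => by
    rw [star_mul, hvs, (hP.1 k).2.isSelfAdjoint.star_eq]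
    simp only [mul_assoc, ← mul_assoc v v, hvv]
  have e2 : ∀ k, v * P k * v = v * P k * star (v * P k) := fun k => by
    rw [star_mul, hvs, (hP.1 k).2.isSelfAdjoint.star_eq]
    simp only [mul_assoc, ← mul_assoc (P k) (P k), (hP.1 k).2.isIdempotentElem.eq]
  have hPM : ∀ k, v * P k ∈ M := fun k => mul_mem hv.1 (hAM _ (hP.1 k).1)
  have e4 : ∑ k, v * P k * v = v := by rw [← Finset.sum_mul, ← Finset.mul_sum, hP.2.2, mul_one, hvv]
  have hnn1 : ∀ k, P k * v * P k ∈ M ∧ 0 ≤ P k * v * P k := fun k =>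
    ⟨mul_mem (mul_mem (hAM _ (hP.1 k).1) hv.1) (hAM _ (hP.1 k).1),
      by rw [e1]; exact star_mul_self_nonneg _⟩
  have hnn2 : ∀ k, v * P k * v ∈ M ∧ 0 ≤ v * P k * v := fun k =>
    ⟨mul_mem (hPM k) hv.1, by rw [e2]; exact mul_star_self_nonneg _⟩
  rw [Vale.Agent.P078.pinch, hs.sum _ _ hnn1]
  conv_rhs => rw [← e4, hs.sum _ _ hnn2]
  refine Finset.sum_congr rfl fun k _ => ?_
  rw [e1, e2, hs.comm (hPM k)]

end Vale.Agent.P078.Semifinite.Corners
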